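import Vale.Agent.P022.H783.HAc

/-! # P022-L3, twists by Dirichlet characters of odd modulus: the literals -/

set_option autoImplicit false

open scoped ModularForm MatrixGroups Manifold
open UpperHalfPlane Matrix CongruenceSubgroup

noncomputable section

namespace Vale.Agent.P022.H783.Tw

open Vale.Agent.P022 Vale.Agent.P022.H783

/-- a prime `ℓ ∤ 2 N m²` as a prime `ℓ ∤ 2 N` -/
def dnP (N m : ℕ) (ℓ : PA (N * m ^ 2)) : PA N :=
  ⟨ℓ.1, ℓ.2.1, fun h => ℓ.2.2 (h.trans ⟨m ^ 2, by ring⟩)⟩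

theorem dnP_coprime (N m : ℕ) (ℓ : PA (N * m ^ 2)) : Nat.Coprime ℓ.1 m :=
  (Nat.Prime.coprime_iff_not_dvd ℓ.2.1).2 fun h =>
    ℓ.2.2 (h.trans ⟨2 * N * m, by ring⟩)

/-- the class of `ℓ` in `(ℤ/m)ˣ` -/
def uP (N m : ℕ) (ℓ : PA (N * m ^ 2)) : (ZMod m)ˣ := ZMod.unitOfCoprime ℓ.1 (dnP_coprime N m ℓ)

/-- [TWI] the twist of a form of level `N` by a Dirichlet character `χ` modulo `m` -/
def TwiStmt : Prop := ∀ (N m : ℕ) [NeZero N] [NeZero m] (k : ℕ) (χ : DirichletCharacter ℂ m),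
  ∃ tw : MF N k →ₗ[ℂ] MF (N * m ^ 2) k,
    (∀ (f : MF N k) (n : ℕ), (qExpansion 1 (tw f)).coeff n =
      χ n * (qExpansion 1 f).coeff n) ∧
    (∀ (ℓ : PA (N * m ^ 2)) (f : MF N k),
      dia k ℓ (tw f) = χ (ℓ.1 : ZMod m) ^ 2 • tw (dia k (dnP N m ℓ) f)) ∧
    (∀ (ℓ : PA (N * m ^ 2)) (f : MF N k),
      Tl k ℓ (tw f) = χ (ℓ.1 : ZMod m) • tw (Tl k (dnP N m ℓ) f))

/-- [UP] the operator `U_p` at a prime `p ∣ N` -/
def UpStmt : Prop := ∀ (N : ℕ) [NeZero N] (k p : ℕ), p.Prime → p ∣ N →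
  ∃ U : Module.End ℂ (MF N k),
    (∀ (f : MF N k) (n : ℕ), (qExpansion 1 (U f)).coeff n =
      (qExpansion 1 f).coeff (p * n)) ∧
    (∀ (ℓ : PA N) (f : MF N k), U (dia k ℓ f) = dia k ℓ (U f))

/-- [UPC] `U_p` commutes with the Hecke operators -/
def UpcStmt : Prop := ∀ (N : ℕ) [NeZero N] (k p : ℕ), p.Prime → p ∣ N →
  ∃ U : Module.End ℂ (MF N k),
    (∀ (f : MF N k) (n : ℕ), (qExpansion 1 (U f)).coeff n =
      (qExpansion 1 f).coeff (p * n)) ∧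
    (∀ (ℓ : PA N) (f : MF N k), U (dia k ℓ f) = dia k ℓ (U f)) ∧
    (∀ (ℓ : PA N) (f : MF N k), U (Tl k ℓ f) = Tl k ℓ (U f))

/-- [KER] an operator on `M_(i+1)(Γ₁(N))` which commutes with all Hecke operators (those at the
primes dividing `N` included) and kills the coefficients prime to `m` is zero -/
def KerStmt : Prop := ∀ (N m i : ℕ) [NeZero N] [NeZero m], Odd m →
  ∀ Y : Module.End ℂ (MF N (i + 1)),
    (∀ s : Gen N, Y * gHk N s i = gHk N s i * Y) →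
    (∀ p : ℕ, p.Prime → p ∣ N → ∀ U : Module.End ℂ (MF N (i + 1)),
      (∀ (f : MF N (i + 1)) (n : ℕ), (qExpansion 1 (U f)).coeff n =
        (qExpansion 1 f).coeff (p * n)) →
      (∀ (ℓ : PA N) (f : MF N (i + 1)), U (dia (i + 1) ℓ f) = dia (i + 1) ℓ (U f)) →
      (∀ (ℓ : PA N) (f : MF N (i + 1)), U (Tl (i + 1) ℓ f) = Tl (i + 1) ℓ (U f)) →
      Y * U = U * Y) →
    (∀ (f : MF N (i + 1)) (n : ℕ), n.Coprime m →
      (qExpansion 1 (Y f)).coeff n = 0) → Y = 0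

/-- [ALG] the estimate at level `N` gives the estimate for the twist at level `N m²` -/
def AlgStmt : Prop := ∀ (N m : ℕ) [NeZero N] [NeZero m], Odd m →
  ∀ (E : Type) [NontriviallyNormedField E] [IsUltrametricDist E] (ψ : (ZMod m)ˣ →* Eˣ)
    (t d : PA N → E),
    (∀ ε : ℝ, 0 < ε → ∃ k : ℕ, ∀ x : FreeAlgebra ℤ (Gen N),
      (∀ i < k, FreeAlgebra.lift ℤ (fun s => gHk N s i) x = 0) →
        ‖FreeAlgebra.lift ℤ (Sum.elim t d) x‖ < ε) →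
    ∀ ε : ℝ, 0 < ε → ∃ k : ℕ, ∀ x : FreeAlgebra ℤ (Gen (N * m ^ 2)),
      (∀ i < k, FreeAlgebra.lift ℤ (fun s => gHk (N * m ^ 2) s i) x = 0) →
        ‖FreeAlgebra.lift ℤ (Sum.elim
          (fun ℓ : PA (N * m ^ 2) => (ψ (uP N m ℓ) : E) * t (dnP N m ℓ))
          (fun ℓ : PA (N * m ^ 2) => (ψ (uP N m ℓ) : E) ^ 2 * d (dnP N m ℓ))) x‖ < ε

end Vale.Agent.P022.H783.Tw
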